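import Vale.Agent.P098.Six.S16.Part0
import Vale.Agent.P098.Six.S16.Part1

/-!
# P098, six dimensions: the checked tree
-/

namespace Vale.Agent.P098.Six.S16

theorem ok0 (hp : Packed lay 2437951776 root) :
    runPath (lay.con 2437951776 1) (chkL seg) [.d0 false, .d1 false, .d2 false, .d0 false, .d1 false] tree0 0 0 0 root = true :=
  runPath_of_fastR supQ_good conQ_good rfl hp parts0.1

theorem ok1 (hp : Packed lay 2437951776 root) :
    runPath (lay.con 2437951776 1) (chkL seg) [.d0 false, .d1 false, .d2 false, .d0 false, .d1 true, .d0 false, .d1 false] tree1 0 0 0 root = true :=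
  runPath_of_fastR supQ_good conQ_good rfl hp parts0.2.1

theorem ok2 (hp : Packed lay 2437951776 root) :
    runPath (lay.con 2437951776 1) (chkL seg) [.d0 false, .d1 false, .d2 false, .d0 false, .d1 true, .d0 false, .d1 true] tree2 0 0 0 root = true :=
  runPath_of_fastR supQ_good conQ_good rfl hp parts0.2.2.1

theorem ok3 (hp : Packed lay 2437951776 root) :
    runPath (lay.con 2437951776 1) (chkL seg) [.d0 false, .d1 false, .d2 false, .d0 false, .d1 true, .d0 true] tree3 0 0 0 root = true :=
  runPath_of_fastR supQ_good conQ_good rfl hp parts0.2.2.2.1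

theorem ok4 (hp : Packed lay 2437951776 root) :
    runPath (lay.con 2437951776 1) (chkL seg) [.d0 false, .d1 false, .d2 false, .d0 true] tree4 0 0 0 root = true :=
  runPath_of_fastR supQ_good conQ_good rfl hp parts0.2.2.2.2.1

theorem ok5 (hp : Packed lay 2437951776 root) :
    runPath (lay.con 2437951776 1) (chkL seg) [.d0 false, .d1 false, .d2 true, .d0 false, .d1 false, .d2 false] tree5 0 0 0 root = true :=
  runPath_of_fastR supQ_good conQ_good rfl hp parts0.2.2.2.2.2.1

theorem ok6 (hp : Packed lay 2437951776 root) :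
    runPath (lay.con 2437951776 1) (chkL seg) [.d0 false, .d1 false, .d2 true, .d0 false, .d1 false, .d2 true] tree6 0 0 0 root = true :=
  runPath_of_fastR supQ_good conQ_good rfl hp parts0.2.2.2.2.2.2.1

theorem ok7 (hp : Packed lay 2437951776 root) :
    runPath (lay.con 2437951776 1) (chkL seg) [.d0 false, .d1 false, .d2 true, .d0 false, .d1 true] tree7 0 0 0 root = true :=
  runPath_of_fastR supQ_good conQ_good rfl hp parts0.2.2.2.2.2.2.2.1

theorem ok8 (hp : Packed lay 2437951776 root) :
    runPath (lay.con 2437951776 1) (chkL seg) [.d0 false, .d1 false, .d2 true, .d0 true, .d1 false, .d0 false] tree8 0 0 0 root = true :=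
  runPath_of_fastR supQ_good conQ_good rfl hp parts0.2.2.2.2.2.2.2.2.1

theorem ok9 (hp : Packed lay 2437951776 root) :
    runPath (lay.con 2437951776 1) (chkL seg) [.d0 false, .d1 false, .d2 true, .d0 true, .d1 false, .d0 true] tree9 0 0 0 root = true :=
  runPath_of_fastR supQ_good conQ_good rfl hp parts0.2.2.2.2.2.2.2.2.2.1

theorem ok10 (hp : Packed lay 2437951776 root) :
    runPath (lay.con 2437951776 1) (chkL seg) [.d0 false, .d1 false, .d2 true, .d0 true, .d1 true] tree10 0 0 0 root = true :=
  runPath_of_fastR supQ_good conQ_good rfl hp parts0.2.2.2.2.2.2.2.2.2.2.1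

theorem ok11 (hp : Packed lay 2437951776 root) :
    runPath (lay.con 2437951776 1) (chkL seg) [.d0 false, .d1 true, .d2 false, .d0 false] tree11 0 0 0 root = true :=
  runPath_of_fastR supQ_good conQ_good rfl hp parts0.2.2.2.2.2.2.2.2.2.2.2.1

theorem ok12 (hp : Packed lay 2437951776 root) :
    runPath (lay.con 2437951776 1) (chkL seg) [.d0 false, .d1 true, .d2 false, .d0 true, .d1 false] tree12 0 0 0 root = true :=
  runPath_of_fastR supQ_good conQ_good rfl hp parts0.2.2.2.2.2.2.2.2.2.2.2.2.1

theorem ok13 (hp : Packed lay 2437951776 root) :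
    runPath (lay.con 2437951776 1) (chkL seg) [.d0 false, .d1 true, .d2 false, .d0 true, .d1 true, .d0 false, .d1 false] tree13 0 0 0 root = true :=
  runPath_of_fastR supQ_good conQ_good rfl hp parts0.2.2.2.2.2.2.2.2.2.2.2.2.2.1

theorem ok14 (hp : Packed lay 2437951776 root) :
    runPath (lay.con 2437951776 1) (chkL seg) [.d0 false, .d1 true, .d2 false, .d0 true, .d1 true, .d0 false, .d1 true] tree14 0 0 0 root = true :=
  runPath_of_fastR supQ_good conQ_good rfl hp parts0.2.2.2.2.2.2.2.2.2.2.2.2.2.2.1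

theorem ok15 (hp : Packed lay 2437951776 root) :
    runPath (lay.con 2437951776 1) (chkL seg) [.d0 false, .d1 true, .d2 false, .d0 true, .d1 true, .d0 true, .d1 false, .d2 false] tree15 0 0 0 root = true :=
  runPath_of_fastR supQ_good conQ_good rfl hp parts0.2.2.2.2.2.2.2.2.2.2.2.2.2.2.2

theorem ok16 (hp : Packed lay 2437951776 root) :
    runPath (lay.con 2437951776 1) (chkL seg) [.d0 false, .d1 true, .d2 false, .d0 true, .d1 true, .d0 true, .d1 false, .d2 true] tree16 0 0 0 root = true :=
  runPath_of_fastR supQ_good conQ_good rfl hp parts1.1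

theorem ok17 (hp : Packed lay 2437951776 root) :
    runPath (lay.con 2437951776 1) (chkL seg) [.d0 false, .d1 true, .d2 false, .d0 true, .d1 true, .d0 true, .d1 true, .d1 false, .d2 false] tree17 0 0 0 root = true :=
  runPath_of_fastR supQ_good conQ_good rfl hp parts1.2.1

theorem ok18 (hp : Packed lay 2437951776 root) :
    runPath (lay.con 2437951776 1) (chkL seg) [.d0 false, .d1 true, .d2 false, .d0 true, .d1 true, .d0 true, .d1 true, .d1 false, .d2 true] tree18 0 0 0 root = true :=
  runPath_of_fastR supQ_good conQ_good rfl hp parts1.2.2.1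

theorem ok19 (hp : Packed lay 2437951776 root) :
    runPath (lay.con 2437951776 1) (chkL seg) [.d0 false, .d1 true, .d2 false, .d0 true, .d1 true, .d0 true, .d1 true, .d1 true] tree19 0 0 0 root = true :=
  runPath_of_fastR supQ_good conQ_good rfl hp parts1.2.2.2.1

theorem ok20 (hp : Packed lay 2437951776 root) :
    runPath (lay.con 2437951776 1) (chkL seg) [.d0 false, .d1 true, .d2 true, .d0 false] tree20 0 0 0 root = true :=
  runPath_of_fastR supQ_good conQ_good rfl hp parts1.2.2.2.2.1

theorem ok21 (hp : Packed lay 2437951776 root) :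
    runPath (lay.con 2437951776 1) (chkL seg) [.d0 false, .d1 true, .d2 true, .d0 true] tree21 0 0 0 root = true :=
  runPath_of_fastR supQ_good conQ_good rfl hp parts1.2.2.2.2.2.1

theorem ok22 (hp : Packed lay 2437951776 root) :
    runPath (lay.con 2437951776 1) (chkL seg) [.d0 true, .d1 false, .d2 false] tree22 0 0 0 root = true :=
  runPath_of_fastR supQ_good conQ_good rfl hp parts1.2.2.2.2.2.2.1

theorem ok23 (hp : Packed lay 2437951776 root) :
    runPath (lay.con 2437951776 1) (chkL seg) [.d0 true, .d1 false, .d2 true, .d0 false, .d1 false] tree23 0 0 0 root = true :=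
  runPath_of_fastR supQ_good conQ_good rfl hp parts1.2.2.2.2.2.2.2.1

theorem ok24 (hp : Packed lay 2437951776 root) :
    runPath (lay.con 2437951776 1) (chkL seg) [.d0 true, .d1 false, .d2 true, .d0 false, .d1 true] tree24 0 0 0 root = true :=
  runPath_of_fastR supQ_good conQ_good rfl hp parts1.2.2.2.2.2.2.2.2.1

theorem ok25 (hp : Packed lay 2437951776 root) :
    runPath (lay.con 2437951776 1) (chkL seg) [.d0 true, .d1 false, .d2 true, .d0 true] tree25 0 0 0 root = true :=
  runPath_of_fastR supQ_good conQ_good rfl hp parts1.2.2.2.2.2.2.2.2.2.1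

theorem ok26 (hp : Packed lay 2437951776 root) :
    runPath (lay.con 2437951776 1) (chkL seg) [.d0 true, .d1 true, .d2 false, .d0 false] tree26 0 0 0 root = true :=
  runPath_of_fastR supQ_good conQ_good rfl hp parts1.2.2.2.2.2.2.2.2.2.2.1

theorem ok27 (hp : Packed lay 2437951776 root) :
    runPath (lay.con 2437951776 1) (chkL seg) [.d0 true, .d1 true, .d2 false, .d0 true] tree27 0 0 0 root = true :=
  runPath_of_fastR supQ_good conQ_good rfl hp parts1.2.2.2.2.2.2.2.2.2.2.2.1

theorem ok28 (hp : Packed lay 2437951776 root) :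
    runPath (lay.con 2437951776 1) (chkL seg) [.d0 true, .d1 true, .d2 true, .d0 false] tree28 0 0 0 root = true :=
  runPath_of_fastR supQ_good conQ_good rfl hp parts1.2.2.2.2.2.2.2.2.2.2.2.2.1

theorem ok29 (hp : Packed lay 2437951776 root) :
    runPath (lay.con 2437951776 1) (chkL seg) [.d0 true, .d1 true, .d2 true, .d0 true] tree29 0 0 0 root = true :=
  runPath_of_fastR supQ_good conQ_good rfl hp parts1.2.2.2.2.2.2.2.2.2.2.2.2.2

theorem tree_ok (hp : Packed lay 2437951776 root) :
    ∃ T, run (lay.con 2437951776 1) (chkL seg) T 0 0 0 root = true :=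
  ⟨_, run_of_runPath (runPath_node (.d0 false) [] _ _ _ _ _ _
    (runPath_node (.d1 false) [.d0 false] _ _ _ _ _ _
    (runPath_node (.d2 false) [.d0 false, .d1 false] _ _ _ _ _ _
    (runPath_node (.d0 false) [.d0 false, .d1 false, .d2 false] _ _ _ _ _ _
    (runPath_node (.d1 false) [.d0 false, .d1 false, .d2 false, .d0 false] _ _ _ _ _ _
    (ok0 hp)
    (runPath_node (.d0 false) [.d0 false, .d1 false, .d2 false, .d0 false, .d1 true] _ _ _ _ _ _
    (runPath_node (.d1 false) [.d0 false, .d1 false, .d2 false, .d0 false, .d1 true, .d0 false] _ _ _ _ _ _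
    (ok1 hp)
    (ok2 hp))
    (ok3 hp)))
    (ok4 hp))
    (runPath_node (.d0 false) [.d0 false, .d1 false, .d2 true] _ _ _ _ _ _
    (runPath_node (.d1 false) [.d0 false, .d1 false, .d2 true, .d0 false] _ _ _ _ _ _
    (runPath_node (.d2 false) [.d0 false, .d1 false, .d2 true, .d0 false, .d1 false] _ _ _ _ _ _
    (ok5 hp)
    (ok6 hp))
    (ok7 hp))
    (runPath_node (.d1 false) [.d0 false, .d1 false, .d2 true, .d0 true] _ _ _ _ _ _
    (runPath_node (.d0 false) [.d0 false, .d1 false, .d2 true, .d0 true, .d1 false] _ _ _ _ _ _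
    (ok8 hp)
    (ok9 hp))
    (ok10 hp))))
    (runPath_node (.d2 false) [.d0 false, .d1 true] _ _ _ _ _ _
    (runPath_node (.d0 false) [.d0 false, .d1 true, .d2 false] _ _ _ _ _ _
    (ok11 hp)
    (runPath_node (.d1 false) [.d0 false, .d1 true, .d2 false, .d0 true] _ _ _ _ _ _
    (ok12 hp)
    (runPath_node (.d0 false) [.d0 false, .d1 true, .d2 false, .d0 true, .d1 true] _ _ _ _ _ _
    (runPath_node (.d1 false) [.d0 false, .d1 true, .d2 false, .d0 true, .d1 true, .d0 false] _ _ _ _ _ _
    (ok13 hp)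
    (ok14 hp))
    (runPath_node (.d1 false) [.d0 false, .d1 true, .d2 false, .d0 true, .d1 true, .d0 true] _ _ _ _ _ _
    (runPath_node (.d2 false) [.d0 false, .d1 true, .d2 false, .d0 true, .d1 true, .d0 true, .d1 false] _ _ _ _ _ _
    (ok15 hp)
    (ok16 hp))
    (runPath_node (.d1 false) [.d0 false, .d1 true, .d2 false, .d0 true, .d1 true, .d0 true, .d1 true] _ _ _ _ _ _
    (runPath_node (.d2 false) [.d0 false, .d1 true, .d2 false, .d0 true, .d1 true, .d0 true, .d1 true, .d1 false] _ _ _ _ _ _
    (ok17 hp)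
    (ok18 hp))
    (ok19 hp))))))
    (runPath_node (.d0 false) [.d0 false, .d1 true, .d2 true] _ _ _ _ _ _
    (ok20 hp)
    (ok21 hp))))
    (runPath_node (.d1 false) [.d0 true] _ _ _ _ _ _
    (runPath_node (.d2 false) [.d0 true, .d1 false] _ _ _ _ _ _
    (ok22 hp)
    (runPath_node (.d0 false) [.d0 true, .d1 false, .d2 true] _ _ _ _ _ _
    (runPath_node (.d1 false) [.d0 true, .d1 false, .d2 true, .d0 false] _ _ _ _ _ _
    (ok23 hp)
    (ok24 hp))
    (ok25 hp)))
    (runPath_node (.d2 false) [.d0 true, .d1 true] _ _ _ _ _ _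
    (runPath_node (.d0 false) [.d0 true, .d1 true, .d2 false] _ _ _ _ _ _
    (ok26 hp)
    (ok27 hp))
    (runPath_node (.d0 false) [.d0 true, .d1 true, .d2 true] _ _ _ _ _ _
    (ok28 hp)
    (ok29 hp)))))⟩

end Vale.Agent.P098.Six.S16
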